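import Vale.Agent.P214.TPU.Int

/-!
# P214, block TPU, part 6: the energy of a class of collapsed base points (BoxClass)

`Df x s` = smooth excess, `Af x s` = the function of the path lemma, `v = log (τ²/Af x τ)` up to `1`.
The class: there are scales `0 < s ≤ r_a ≤ τ` with `Df x s ≥ v^{-b}`, `Df x ≤ v^{-b}` on `[s, τ]`,
`Af x ≤ C₀ v^{-a} Af x τ` on `[s, r_a]`, `Af x τ ≤ r_a²`, `r_a ∈ (ρ, 2ρ]`.  Then the class in
`ball p0 (τ/16)` has energy at most `C v^{-c} e^{-v} τ^m`.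
-/

open Set Filter Topology MeasureTheory Metric
open scoped RealInnerProductSpace ENNReal

set_option linter.all false

namespace Vale.Agent.P214.TPU

open Vale.Agent.P214.FV Vale.Agent.P214.ODE Vale.Agent.P214.Skel

/-! ### numbers -/

/-- what it means that `v` is large -/
structure Large (c : ℕ) (C₁ X v : ℝ) : Prop where
  one : 1 ≤ v
  big : 1024 * Real.exp 1 * C₁ ^ 2 ≤ v
  bigX : X ≤ v
  exp : 32 * C₁ * v ^ (c + 1) ≤ Real.exp (v / 2)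

lemma exists_large (c : ℕ) (C₁ X : ℝ) : ∃ v₀, ∀ v, v₀ ≤ v → Large c C₁ X v := by
  have h1 : Tendsto (fun v : ℝ => v ^ (c + 1) * Real.exp (-(1 / 2) * v)) atTop (𝓝 0) := by
    have := Real.tendsto_pow_mul_exp_neg_atTop_nhds_zero (c + 1)
    have h2 : Tendsto (fun v : ℝ => (2 : ℝ) ^ (c + 1) * ((v / 2) ^ (c + 1) * Real.exp (-(v / 2))))
        atTop (𝓝 (2 ^ (c + 1) * 0)) :=
      (this.comp (tendsto_id.atTop_div_const (by norm_num))).const_mul _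
    rw [mul_zero] at h2
    refine h2.congr fun v => ?_
    rw [div_pow, ← mul_assoc, mul_div_cancel₀ _ (by positivity : (2:ℝ) ^ (c + 1) ≠ 0)]
    congr 2
    ring
  have h3 : ∀ᶠ v : ℝ in atTop, 32 * |C₁| * (v ^ (c + 1) * Real.exp (-(1 / 2) * v)) ≤ 1 := by
    have h4 := h1.const_mul (32 * |C₁|)
    rw [mul_zero] at h4
    exact (h4.eventually (gt_mem_nhds one_pos)).mono fun v hv => hv.le
  obtain ⟨v₀, hv₀⟩ := eventually_atTop.1
    (h3.and ((eventually_ge_atTop (1:ℝ)).and ((eventually_ge_atTop (1024 * Real.exp 1 * C₁ ^ 2)).and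
      (eventually_ge_atTop X))))
  refine ⟨v₀, fun v hv => ?_⟩
  obtain ⟨h4, h5, h6, h6'⟩ := hv₀ v hv
  refine ⟨h5, h6, h6', ?_⟩
  have h7 : Real.exp (-(1 / 2) * v) = (Real.exp (v / 2))⁻¹ := by
    rw [← Real.exp_neg]; congr 1; ring
  rw [h7] at h4
  have he := Real.exp_pos (v / 2)
  have hv0 : 0 ≤ v ^ (c + 1) := by positivity
  calc 32 * C₁ * v ^ (c + 1) ≤ 32 * |C₁| * v ^ (c + 1) := by
        gcongr
        exact le_abs_self _
    _ = 32 * |C₁| * (v ^ (c + 1) * (Real.exp (v / 2))⁻¹) * Real.exp (v / 2) := by field_simp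
    _ ≤ 1 * Real.exp (v / 2) := by gcongr
    _ = _ := one_mul _

variable {m c : ℕ} {Cσ v τ ρ : ℝ}

/-- the constant of the width -/
noncomputable def cW (m : ℕ) (Cσ : ℝ) : ℝ := 1 + 2 * TH.thC 2 * Cσ / wf m (cg m)

lemma one_le_cW (hCσ : 0 ≤ Cσ) : 1 ≤ cW m Cσ := by
  have h1 := wf_pos (m := m) (cg_pos m)
  have h2 := TH.thC_nonneg (B := 2) (by norm_num)
  unfold cW
  have : 0 ≤ 2 * TH.thC 2 * Cσ / wf m (cg m) := by positivity
  linarith

lemma wf_cW (hCσ : 0 ≤ Cσ) : 2 * TH.thC 2 * Cσ ≤ wf m (cg m) * cW m Cσ ^ 2 := by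
  have h1 := wf_pos (m := m) (cg_pos m)
  have h3 := one_le_cW (m := m) hCσ
  have h4 : wf m (cg m) * cW m Cσ = wf m (cg m) + 2 * TH.thC 2 * Cσ := by
    unfold cW; field_simp
  calc 2 * TH.thC 2 * Cσ ≤ wf m (cg m) * cW m Cσ := by linarith
    _ ≤ wf m (cg m) * cW m Cσ ^ 2 := by
        gcongr
        nlinarith

/-- **Choice of the widths.** -/
lemma choice {X : ℝ} (hCσ : 0 ≤ Cσ) (hL : Large c (cW m Cσ) X v) (hτ : 0 < τ) (hρ : 0 < ρ)
    (hsc : Real.exp (-v) * τ ^ 2 ≤ 4 * Real.exp 1 * ρ ^ 2) {a : ℕ} (ha : 2 * c + 3 ≤ a) :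
    ∃ w r : ℝ, 0 < w ∧ 4 * w ≤ r ∧ r ≤ τ / 8 ∧ 4 * r ≤ ρ ∧ w / r ≤ (v ^ c)⁻¹ ∧
      r / (τ / 8) ≤ (v ^ c)⁻¹ ∧
      2 * TH.thC 2 * (Cσ * (v ^ a)⁻¹ * (Real.exp (-v) * τ ^ 2)) *
        Real.log (r / (2 * w)) ≤ wf m (cg m) * w ^ 2 ∧
      w = cW m Cσ * (v ^ (c + 1))⁻¹ * Real.exp (-(v / 2)) * τ ∧
      (v ^ 2)⁻¹ * (Real.exp (-v) * τ ^ 2) ≤ r ^ 2 := by
  set C₁ := cW m Cσ with hC₁
  have hC1 : 1 ≤ C₁ := one_le_cW hCσ
  have hv1 := hL.one
  have hv0 : 0 < v := by linarith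
  have hvc : 1 ≤ v ^ c := one_le_pow₀ hv1
  have hvc0 : 0 < v ^ c := by positivity
  have hvi : (v ^ c)⁻¹ ≤ 1 := inv_le_one_of_one_le₀ hvc
  set W := C₁ * v⁻¹ * Real.exp (-(v / 2)) * τ with hW
  have he2 : Real.exp (-(v / 2)) ^ 2 = Real.exp (-v) := by
    rw [← Real.exp_nat_mul]; congr 1; push_cast; ring
  have hW0 : 0 < W := by positivity
  have hW2 : W ^ 2 = C₁ ^ 2 * (v ^ 2)⁻¹ * (Real.exp (-v) * τ ^ 2) := by
    rw [hW, mul_pow, mul_pow, mul_pow, he2]; ring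
  set r := min (ρ / 4) ((v ^ c)⁻¹ * (τ / 8)) with hr
  have hr0 : 0 < r := lt_min (by positivity) (by positivity)
  have hr1 : r ≤ (v ^ c)⁻¹ * (τ / 8) := min_le_right _ _
  have hr2 : r ≤ ρ / 4 := min_le_left _ _
  have h4W : 4 * W ≤ r := by
    refine le_min ?_ ?_
    · have h1 : (16 * W) ^ 2 ≤ ρ ^ 2 := by
        have h2 : v * (16 * W) ^ 2 ≤ v * ρ ^ 2 := by
          calc v * (16 * W) ^ 2 = 256 * C₁ ^ 2 * (v * (v ^ 2)⁻¹) * (Real.exp (-v) * τ ^ 2) := by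
                rw [mul_pow, hW2]; ring
            _ ≤ 256 * C₁ ^ 2 * 1 * (4 * Real.exp 1 * ρ ^ 2) := by
                have : v * (v ^ 2)⁻¹ ≤ 1 := by
                  rw [← div_eq_mul_inv, div_le_one (by positivity)]
                  nlinarith
                gcongr
            _ = 1024 * Real.exp 1 * C₁ ^ 2 * ρ ^ 2 := by ring
            _ ≤ v * ρ ^ 2 := by
                gcongr
                exact hL.big
        exact le_of_mul_le_mul_left h2 hv0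
      have h3 := abs_le_of_sq_le_sq' h1 hρ.le
      linarith [h3.2]
    · have h1 : Real.exp (-(v / 2)) = (Real.exp (v / 2))⁻¹ := Real.exp_neg _
      have h2 := hL.exp
      have he := Real.exp_pos (v / 2)
      rw [hW, h1]
      have h3 : 4 * (C₁ * v⁻¹ * (Real.exp (v / 2))⁻¹ * τ) =
          (32 * C₁ * v ^ (c + 1)) * ((v ^ 2)⁻¹ * (Real.exp (v / 2))⁻¹ * (v ^ c)⁻¹ * (τ / 8)) := by
        rw [pow_succ]
        field_simp; ring
      rw [h3]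
      have h4 : (v ^ 2)⁻¹ ≤ 1 := inv_le_one_of_one_le₀ (one_le_pow₀ hv1)
      calc (32 * C₁ * v ^ (c + 1)) * ((v ^ 2)⁻¹ * (Real.exp (v / 2))⁻¹ * (v ^ c)⁻¹ * (τ / 8))
          ≤ Real.exp (v / 2) * (1 * (Real.exp (v / 2))⁻¹ * (v ^ c)⁻¹ * (τ / 8)) := by gcongr
        _ = _ := by field_simp
  have hwW : (v ^ c)⁻¹ * W ≤ W := by
    calc (v ^ c)⁻¹ * W ≤ 1 * W := by gcongr
      _ = W := one_mul _
  refine ⟨(v ^ c)⁻¹ * W, r, by positivity, by linarith, ?_, by linarith, ?_, ?_, ?_, ?_, ?_⟩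
  · calc r ≤ (v ^ c)⁻¹ * (τ / 8) := hr1
      _ ≤ 1 * (τ / 8) := by gcongr
      _ = τ / 8 := one_mul _
  · rw [div_le_iff₀ hr0]
    gcongr
    linarith
  · rw [div_le_iff₀ (by positivity)]
    exact hr1
  · have hlog : Real.log (r / (2 * ((v ^ c)⁻¹ * W))) ≤ v := by
      rw [Real.log_le_iff_le_exp (by positivity), div_le_iff₀ (by positivity)]
      have h2 := hL.exp
      have he := Real.exp_pos (v / 2)
      have h5 : Real.exp v = Real.exp (v / 2) * Real.exp (v / 2) := by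
        rw [← Real.exp_add]; congr 1; ring
      have h6 : Real.exp (v / 2) * Real.exp (-(v / 2)) = 1 := by
        rw [← Real.exp_add]; simp
      have h7 : v ≤ Real.exp (v / 2) := by
        have : v ≤ v ^ (c + 1) := by
          rw [pow_succ]
          nlinarith
        nlinarith
      calc r ≤ (v ^ c)⁻¹ * (τ / 8) := hr1
        _ ≤ (v ^ c)⁻¹ * τ := by gcongr; linarith
        _ = (v ^ c)⁻¹ * τ * (Real.exp (v / 2) * Real.exp (-(v / 2))) := by rw [h6, mul_one]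
        _ = (v⁻¹ * v) * ((v ^ c)⁻¹ * τ * (Real.exp (v / 2) * Real.exp (-(v / 2)))) := by
            rw [inv_mul_cancel₀ hv0.ne', one_mul]
        _ ≤ Real.exp v * (2 * ((v ^ c)⁻¹ * W)) := by
            rw [h5, hW]
            have h9 : Real.exp (v / 2) * Real.exp (v / 2) *
                (2 * ((v ^ c)⁻¹ * (C₁ * v⁻¹ * Real.exp (-(v / 2)) * τ))) =
                (v⁻¹ * (Real.exp (v / 2) * 2 * C₁)) * ((v ^ c)⁻¹ * τ *
                  (Real.exp (v / 2) * Real.exp (-(v / 2)))) := by ring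
            rw [h9]
            refine mul_le_mul_of_nonneg_right ?_ (by positivity)
            refine mul_le_mul_of_nonneg_left ?_ (by positivity)
            nlinarith
    have hth := TH.thC_nonneg (B := 2) (by norm_num)
    have hX : 0 ≤ 2 * TH.thC 2 * (Cσ * (v ^ a)⁻¹ * (Real.exp (-v) * τ ^ 2)) := by
      positivity
    refine (mul_le_mul_of_nonneg_left hlog hX).trans ?_
    have h10 : ((v ^ c)⁻¹ * W) ^ 2 =
        C₁ ^ 2 * ((v ^ (2 * c + 2))⁻¹ * (Real.exp (-v) * τ ^ 2)) := by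
      rw [mul_pow, hW2, inv_pow, ← pow_mul, mul_comm c 2, pow_add, mul_inv]; ring
    have h11 : (v ^ a)⁻¹ * v ≤ (v ^ (2 * c + 2))⁻¹ := by
      calc (v ^ a)⁻¹ * v ≤ (v ^ (2 * c + 3))⁻¹ * v := by gcongr
        _ = (v ^ (2 * c + 2))⁻¹ := by
            rw [show 2 * c + 3 = (2 * c + 2) + 1 by ring, pow_succ]; field_simp
    rw [h10]
    calc 2 * TH.thC 2 * (Cσ * (v ^ a)⁻¹ * (Real.exp (-v) * τ ^ 2)) * v
        = (2 * TH.thC 2 * Cσ) * (((v ^ a)⁻¹ * v) * (Real.exp (-v) * τ ^ 2)) := by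
          ring
      _ ≤ (wf m (cg m) * C₁ ^ 2) * ((v ^ (2 * c + 2))⁻¹ * (Real.exp (-v) * τ ^ 2)) := by
          refine mul_le_mul (wf_cW hCσ) ?_ (by positivity) ?_
          · exact mul_le_mul_of_nonneg_right h11 (by positivity)
          · have := wf_pos (m := m) (cg_pos m)
            positivity
      _ = _ := by ring
  · rw [hW, pow_succ, mul_inv]
    ring
  · calc (v ^ 2)⁻¹ * (Real.exp (-v) * τ ^ 2) ≤ (4 * W) ^ 2 := by
          rw [mul_pow, hW2]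
          have h13 : 0 ≤ (v ^ 2)⁻¹ * (Real.exp (-v) * τ ^ 2) := by positivity
          nlinarith [mul_le_mul_of_nonneg_right (one_le_pow₀ hC1 : 1 ≤ C₁ ^ 2) h13]
      _ ≤ r ^ 2 := by gcongr

/-! ### the class -/

variable {E : Type*} [NormedAddCommGroup E] [InnerProductSpace ℝ E] [FiniteDimensional ℝ E]
variable [MeasurableSpace E] [BorelSpace E]
variable {Q a b : ℕ} {T : Submodule ℝ E} {R h δ : ℝ} {ν : Measure E} {P : E → E →L[ℝ] E}
  {z p0 x : E} {M CK C₀ B : ℝ} {Af Df : E → ℝ → ℝ}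

/-- the base points of the class -/
structure ClsV (T : Submodule ℝ E) (ν : Measure E) (Df Af : E → ℝ → ℝ) (m a b : ℕ)
    (C₀ B τ ρ v : ℝ) (x : E) : Prop where
  mem : x ∈ T
  lo : Real.exp (-(v + 1)) * τ ^ 2 ≤ Af x τ
  hi : Af x τ ≤ Real.exp (-v) * τ ^ 2
  ex : ∃ s ra, 0 < s ∧ s ≤ ra ∧ ra ≤ τ ∧ ρ ≤ ra ∧ ra ≤ 2 * ρ ∧ (v ^ b)⁻¹ ≤ Df x s ∧
    (∀ t ∈ Icc s τ, Df x t ≤ (v ^ b)⁻¹) ∧ (∀ t ∈ Icc s ra, Af x t ≤ C₀ * (v ^ a)⁻¹ * Af x τ) ∧
    Af x τ ≤ ra ^ 2 ∧ ν.real (cylSet T x s) ≤ B * s ^ m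

/-- comparison of the sharp excess, the smooth excess and the function of the path lemma -/
structure Cmp (T : Submodule ℝ E) (ν : Measure E) (P : E → E →L[ℝ] E) (Df Af : E → ℝ → ℝ)
    (m : ℕ) (CK τ : ℝ) (x : E) : Prop where
  k1 : ∀ s, 0 < s → s ≤ τ → s ^ m * Df x s ≤ exc T ν P x s
  k2 : ∀ s, 0 < s → s ≤ τ → exc T ν P x (s / 2) ≤ CK * s ^ m * Df x s
  k3 : ∀ s, 0 < s → s ≤ τ → s ^ 2 * Df x s ≤ 2 * Af x s

lemma Cmp.exc_le (hx : Cmp T ν P Df Af m CK τ x) (hCK : 0 ≤ CK) {s : ℝ} (hs : 0 < s)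
    (hsτ : s ≤ τ) : exc T ν P x (s / 2) ≤ 2 * CK * (s ^ m / s ^ 2) * Af x s := by
  have h1 := hx.k2 s hs hsτ
  have h2 := hx.k3 s hs hsτ
  calc exc T ν P x (s / 2) ≤ CK * s ^ m * Df x s := h1
    _ = CK * (s ^ m / s ^ 2) * (s ^ 2 * Df x s) := by field_simp
    _ ≤ CK * (s ^ m / s ^ 2) * (2 * Af x s) := by gcongr
    _ = _ := by ring

/-- the constant of `σ` -/
noncomputable def cS (m : ℕ) (CK C₀ : ℝ) : ℝ := CK * 4 ^ m * C₀

/-- the constant of the class estimate -/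
noncomputable def cV (m : ℕ) (M CK C₀ : ℝ) : ℝ :=
  2 * (CK * 12 ^ m) * (clC m (8 ^ m * M) *
    (8 * cW m (cS m CK C₀) * √(8 * M * CK) + 4 * CK))

/-- **The energy of a class of collapsed base points.** -/
theorem cls_v (hI : IntCyl m Q T z R h δ ν P) (hp0 : p0 ∈ T) (hb : ‖p0 - z‖ + 2 * τ ≤ R)
    (hτ : 0 < τ) (hρ : 0 < ρ) (hM : ν.real (cylSet T p0 (2 * τ)) ≤ M * τ ^ m)
    (hCK : 0 ≤ CK) (hC₀ : 0 ≤ C₀) (hB : 0 < B)
    (ha : 2 * c + 3 + b ≤ a)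
    (hL : Large c (cW m (cS m CK C₀)) (max (2 * C₀) (2 * cS m CK C₀ * B / c0 m (cg m))) v)
    (hcmp : ∀ x ∈ T, dist x p0 ≤ τ / 16 → Cmp T ν P Df Af m CK τ x)
    (hp : ClsV T ν Df Af m a b C₀ B τ ρ v p0) :
    ∃ S : Set E, MeasurableSet S ∧
      {x | ClsV T ν Df Af m a b C₀ B τ ρ v x ∧ dist x p0 ≤ τ / 16} ⊆ S ∧
      ∫ y in T.starProjection ⁻¹' S, FV.tilt T (P y) ∂ν ≤
        cV m M CK C₀ * (v ^ c)⁻¹ * Real.exp (-v) * τ ^ m := by
  classical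
  have hC := hI.cyl
  haveI := hC.fin
  have hv1 := hL.one
  have hv0 : 0 < v := by linarith
  set Cσ := cS m CK C₀ with hCσ
  have hCσ0 : 0 ≤ Cσ := by rw [hCσ]; unfold cS; positivity
  set C₁ := cW m Cσ with hC₁
  have hC1 : 1 ≤ C₁ := one_le_cW hCσ0
  have hc0 := c0_pos (m := m) (cg_pos m)
  have hM0 : 0 ≤ M := by
    have h1 : 0 ≤ M * τ ^ m := measureReal_nonneg.trans hM
    exact nonneg_of_mul_nonneg_left h1 (by positivity)
  set Λ := Real.exp (-v) * τ ^ 2 with hΛ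
  have hΛ0 : 0 < Λ := by positivity
  -- the collapse scale
  have hsc : Real.exp (-v) * τ ^ 2 ≤ 4 * Real.exp 1 * ρ ^ 2 := by
    obtain ⟨s, ra, h1, h2, h3, h4, h5, -, -, -, h6, -⟩ := hp.ex
    have h7 := hp.lo
    have h8 : Real.exp (-(v + 1)) = Real.exp (-v) * (Real.exp 1)⁻¹ := by
      rw [← Real.exp_neg, ← Real.exp_add]; congr 1; ring
    have he := Real.exp_pos 1
    calc Real.exp (-v) * τ ^ 2 = Real.exp 1 * (Real.exp (-(v + 1)) * τ ^ 2) := by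
          rw [h8]; field_simp
      _ ≤ Real.exp 1 * ((2 * ρ) ^ 2) := by
          have h9 : ra ^ 2 ≤ (2 * ρ) ^ 2 := by
            have : 0 < ra := h1.trans_le h2
            gcongr
          have h10 := h7.trans (h6.trans h9)
          gcongr
      _ = _ := by ring
  obtain ⟨w, r, hw, hwr, hrτ, hrρ, hwr', hrt', hlog, hweq, hr2⟩ :=
    choice (m := m) (a := a) hCσ0 hL hτ hρ hsc (by omega)
  have hr : 0 < r := by linarith
  set t := τ / 8 with ht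
  have ht0 : 0 < t := by positivity
  -- the class
  set X : Set E := {x | ClsV T ν Df Af m a b C₀ B τ ρ v x ∧ dist x p0 ≤ τ / 16} with hX
  have hch : ∀ x : E, ∃ s : ℝ, x ∈ X → 0 < s ∧ s ≤ τ ∧ (v ^ b)⁻¹ ≤ Df x s ∧
      (∀ t ∈ Icc s τ, Df x t ≤ (v ^ b)⁻¹) ∧
      (∀ t ∈ Icc s ρ, Af x t ≤ C₀ * (v ^ a)⁻¹ * Λ) ∧
      Af x s ≤ C₀ * (v ^ a)⁻¹ * Λ ∧ ν.real (cylSet T x s) ≤ B * s ^ m := by
    intro x
    by_cases hx : x ∈ X
    · obtain ⟨s, ra, h1, h2, h3, h4, h5, h6, h7, h8, h9, h10⟩ := hx.1.ex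
      have h11 : ∀ t ∈ Icc s ra, Af x t ≤ C₀ * (v ^ a)⁻¹ * Λ := fun t ht =>
        (h8 t ht).trans (mul_le_mul_of_nonneg_left hx.1.hi (by positivity))
      exact ⟨s, fun _ => ⟨h1, h2.trans h3, h6, h7,
        fun t ht => h11 t ⟨ht.1, ht.2.trans h4⟩, h11 s ⟨le_rfl, h2⟩, h10⟩⟩
    · exact ⟨1, fun h => absurd h hx⟩
  choose s hs using hch
  -- powers of `v`
  have hvb : 0 < v ^ b := by positivity
  have hpa : (v ^ a)⁻¹ * v ^ b * v ^ (2 * c + 3) ≤ 1 := by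
    have h1 : v ^ (2 * c + 3) * v ^ b ≤ v ^ a := by
      rw [← pow_add]; exact pow_le_pow_right₀ hv1 ha
    calc (v ^ a)⁻¹ * v ^ b * v ^ (2 * c + 3) = (v ^ a)⁻¹ * (v ^ (2 * c + 3) * v ^ b) := by ring
      _ ≤ (v ^ a)⁻¹ * v ^ a := by gcongr
      _ = 1 := inv_mul_cancel₀ (by positivity)
  have hX1 : 2 * C₀ ≤ v := (le_max_left _ _).trans hL.bigX
  have hX2 : 2 * Cσ * B / c0 m (cg m) ≤ v := (le_max_right _ _).trans hL.bigX
  -- the bottoms are below the width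
  have hsw : ∀ x ∈ X, s x ≤ w := by
    intro x hx
    obtain ⟨h1, h2, h3, h4, h5, h6, h7⟩ := hs x hx
    have h8 := (hcmp x hx.1.mem hx.2).k3 (s x) h1 h2
    have h9 : (s x) ^ 2 * (v ^ b)⁻¹ ≤ 2 * (C₀ * (v ^ a)⁻¹ * Λ) := by
      calc (s x) ^ 2 * (v ^ b)⁻¹ ≤ (s x) ^ 2 * Df x (s x) := by gcongr
        _ ≤ 2 * Af x (s x) := h8
        _ ≤ _ := by gcongr
    have h10 : (s x) ^ 2 ≤ w ^ 2 := by
      have he2 : Real.exp (-(v / 2)) ^ 2 = Real.exp (-v) := by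
        rw [← Real.exp_nat_mul]; congr 1; push_cast; ring
      have h11 : w ^ 2 = C₁ ^ 2 * ((v ^ (2 * c + 2))⁻¹ * Λ) := by
        rw [hweq, mul_pow, mul_pow, mul_pow, he2, hΛ, inv_pow, ← pow_mul]
        rw [show (c + 1) * 2 = 2 * c + 2 by ring]; ring
      rw [h11]
      calc (s x) ^ 2 = ((s x) ^ 2 * (v ^ b)⁻¹) * v ^ b := by field_simp
        _ ≤ (2 * (C₀ * (v ^ a)⁻¹ * Λ)) * v ^ b := by gcongr
        _ = (2 * C₀) * (((v ^ a)⁻¹ * v ^ b * v ^ (2 * c + 3)) * (v ^ (2 * c + 3))⁻¹) * Λ := by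
            field_simp
        _ ≤ v * (1 * (v ^ (2 * c + 3))⁻¹) * Λ := by gcongr
        _ = (v ^ (2 * c + 2))⁻¹ * Λ := by
            rw [show 2 * c + 3 = (2 * c + 2) + 1 by ring, pow_succ]; field_simp
        _ ≤ C₁ ^ 2 * ((v ^ (2 * c + 2))⁻¹ * Λ) := by
            refine le_mul_of_one_le_left (by positivity) (one_le_pow₀ hC1)
    exact le_of_sq_le_sq h10 hw.le
  -- energies at scales between `w` and `r`
  have hexc : ∀ x ∈ X, ∀ u, w ≤ u → 4 * u ≤ ρ →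
      exc T ν P x (2 * u) ≤ 1 / 8 * Cσ * (u ^ m / u ^ 2) * ((v ^ a)⁻¹ * Λ) := by
    intro x hx u hwu huρ
    obtain ⟨h1, h2, h3, h4, h5, h6, h7⟩ := hs x hx
    have hu0 : 0 < u := hw.trans_le hwu
    have h8 : 4 * u ≤ τ := by
      obtain ⟨s', ra, k1, k2, k3, k4, -⟩ := hx.1.ex
      linarith
    have h9 := (hcmp x hx.1.mem hx.2).exc_le hCK (s := 4 * u) (by positivity) h8
    have h10 : Af x (4 * u) ≤ C₀ * (v ^ a)⁻¹ * Λ := h5 _ ⟨by
      have := hsw x hx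
      linarith, huρ⟩
    rw [show 4 * u / 2 = 2 * u by ring] at h9
    refine h9.trans ?_
    calc 2 * CK * ((4 * u) ^ m / (4 * u) ^ 2) * Af x (4 * u)
        ≤ 2 * CK * ((4 * u) ^ m / (4 * u) ^ 2) * (C₀ * (v ^ a)⁻¹ * Λ) := by gcongr
      _ = _ := by
          rw [hCσ, mul_pow, mul_pow]
          unfold cS
          field_simp
          ring
  have hK0 : 0 ≤ CK * 12 ^ m := by positivity
  have hwτ : 32 * w ≤ τ := by linarith
  obtain ⟨S, hS, hXS, hle⟩ := vitali_int (M := 8 ^ m * M) (t := t) (r := r) (w := w)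
    (σ := Cσ * (v ^ a)⁻¹ * Λ) (lam := (v ^ b)⁻¹ / (2 * B)) (X := X) (s := s) (K := CK * 12 ^ m)
    hI hp0 (by rw [ht]; linarith) (by
      rw [show 16 * t = 2 * τ by rw [ht]; ring, ht, div_pow]
      refine hM.trans (le_of_eq ?_)
      field_simp) hw hwr (by rw [ht]; exact hrτ) (by positivity) hlog (by positivity) hK0
    (fun x hx => by rw [ht]; have := hx.2; linarith) (fun x hx => (hs x hx).1) hsw
    (by
      intro x hx
      obtain ⟨h1, h2, h3, h4, h5, h6, h7⟩ := hs x hx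
      have h8 := hsw x hx
      have hc := hcmp x hx.1.mem hx.2
      have h9 := hc.k2 (12 * s x) (by positivity) (by linarith)
      rw [show 12 * s x / 2 = 6 * s x by ring] at h9
      have h10 := h4 (12 * s x) ⟨by linarith, by linarith⟩
      have h11 := hc.k1 (s x) h1 h2
      calc exc T ν P x (6 * s x) ≤ CK * (12 * s x) ^ m * Df x (12 * s x) := h9
        _ ≤ CK * (12 * s x) ^ m * (v ^ b)⁻¹ := by gcongr
        _ ≤ CK * (12 * s x) ^ m * Df x (s x) := by gcongr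
        _ = CK * 12 ^ m * ((s x) ^ m * Df x (s x)) := by rw [mul_pow]; ring
        _ ≤ CK * 12 ^ m * exc T ν P x (s x) := by gcongr)
    (by
      intro x hx
      obtain ⟨h1, h2, h3, h4, h5, h6, h7⟩ := hs x hx
      have hc := hcmp x hx.1.mem hx.2
      calc 2 * ((v ^ b)⁻¹ / (2 * B) * ν.real (cylSet T x (s x)))
          ≤ 2 * ((v ^ b)⁻¹ / (2 * B) * (B * (s x) ^ m)) := by gcongr
        _ = (s x) ^ m * (v ^ b)⁻¹ := by field_simp
        _ ≤ (s x) ^ m * Df x (s x) := by gcongr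
        _ ≤ exc T ν P x (s x) := hc.k1 (s x) h1 h2)
    (by
      intro x hx u hu
      have hu0 : 0 < u := hw.trans_le hu.1
      have h1 := hexc x hx u hu.1 (by linarith [hu.2])
      have h2 : u ^ (2 - (m : ℤ)) = u ^ 2 / u ^ m := by
        rw [zpow_sub₀ hu0.ne', zpow_natCast]; norm_cast
      rw [h2]
      calc u ^ 2 / u ^ m * exc T ν P x (2 * u)
          ≤ u ^ 2 / u ^ m * (1 / 8 * Cσ * (u ^ m / u ^ 2) * ((v ^ a)⁻¹ * Λ)) := by gcongr
        _ = 1 / 8 * (Cσ * (v ^ a)⁻¹ * Λ) := by field_simp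
        _ ≤ Cσ * (v ^ a)⁻¹ * Λ := by
            have : 0 ≤ Cσ * (v ^ a)⁻¹ * Λ := by positivity
            linarith)
    (by
      intro x hx
      have h1 := hexc x hx r (by linarith) hrρ
      refine h1.trans ?_
      have h2 : Λ ≤ v ^ 2 * r ^ 2 := by
        calc Λ = v ^ 2 * ((v ^ 2)⁻¹ * Λ) := by field_simp
          _ ≤ v ^ 2 * r ^ 2 := by gcongr
      have h3 : (v ^ a)⁻¹ * v ^ 2 ≤ (v ^ b)⁻¹ * v⁻¹ := by
        have h4 : v ^ (2 * c + 3) = v ^ (2 * c) * v ^ 3 := by rw [← pow_add]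
        have h5 : 1 ≤ v ^ (2 * c) := one_le_pow₀ hv1
        calc (v ^ a)⁻¹ * v ^ 2 = ((v ^ a)⁻¹ * v ^ b * v ^ 3) * ((v ^ b)⁻¹ * v⁻¹) := by
              field_simp
          _ ≤ ((v ^ a)⁻¹ * v ^ b * v ^ (2 * c + 3)) * ((v ^ b)⁻¹ * v⁻¹) := by
              gcongr
              · omega
          _ ≤ 1 * ((v ^ b)⁻¹ * v⁻¹) := by gcongr
          _ = _ := one_mul _
      have h6 : Cσ ≤ c0 m (cg m) / (2 * B) * v := by
        rw [div_le_iff₀ hc0] at hX2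
        rw [div_mul_eq_mul_div, le_div_iff₀ (by positivity)]
        linarith
      calc 1 / 8 * Cσ * (r ^ m / r ^ 2) * ((v ^ a)⁻¹ * Λ)
          ≤ 1 / 8 * Cσ * (r ^ m / r ^ 2) * ((v ^ a)⁻¹ * (v ^ 2 * r ^ 2)) := by gcongr
        _ = 1 / 8 * r ^ m * (Cσ * ((v ^ a)⁻¹ * v ^ 2)) := by field_simp
        _ ≤ 1 / 8 * r ^ m * ((c0 m (cg m) / (2 * B) * v) * ((v ^ b)⁻¹ * v⁻¹)) := by gcongr
        _ = c0 m (cg m) / 8 * ((v ^ b)⁻¹ / (2 * B)) * r ^ m := by field_simp)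
  refine ⟨S, hS, hXS, hle.trans ?_⟩
  -- the right side
  set e := exc T ν P p0 (4 * t) with he
  have he0 : 0 ≤ e := R2.exc_nonneg hC _ _
  have hcp := hcmp p0 hp0 (by rw [dist_self]; positivity)
  have he1 : e ≤ 2 * CK * (Real.exp (-v) * τ ^ m) := by
    have h1 := hcp.exc_le hCK hτ le_rfl
    rw [show τ / 2 = 4 * t by rw [ht]; ring] at h1
    calc e ≤ 2 * CK * (τ ^ m / τ ^ 2) * Af p0 τ := h1
      _ ≤ 2 * CK * (τ ^ m / τ ^ 2) * (Real.exp (-v) * τ ^ 2) := by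
          gcongr
          exact hp.hi
      _ = _ := by field_simp
  have hev : Real.exp (-(v / 2)) * Real.exp (-(v / 2)) = Real.exp (-v) := by
    rw [← Real.exp_add]; congr 1; ring
  have hsq : √(4 * (8 ^ m * M) * t ^ m * e) ≤ √(8 * M * CK) * (Real.exp (-(v / 2)) * τ ^ m) := by
    have h1 : 4 * (8 ^ m * M) * t ^ m * e ≤ 8 * M * CK * (Real.exp (-(v / 2)) * τ ^ m) ^ 2 := by
      calc 4 * (8 ^ m * M) * t ^ m * e = 4 * M * τ ^ m * e := by
            rw [ht, div_pow]; field_simp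
        _ ≤ 4 * M * τ ^ m * (2 * CK * (Real.exp (-v) * τ ^ m)) := by gcongr
        _ = _ := by rw [← hev]; ring
    calc √(4 * (8 ^ m * M) * t ^ m * e)
        ≤ √(8 * M * CK * (Real.exp (-(v / 2)) * τ ^ m) ^ 2) := Real.sqrt_le_sqrt h1
      _ = _ := by
          rw [Real.sqrt_mul (by positivity), Real.sqrt_sq (by positivity)]
  have hwt : w / t ≤ 8 * C₁ * (v ^ c)⁻¹ * Real.exp (-(v / 2)) := by
    rw [ht, hweq]
    have h1 : (v ^ (c + 1))⁻¹ ≤ (v ^ c)⁻¹ := by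
      gcongr
      · omega
    calc C₁ * (v ^ (c + 1))⁻¹ * Real.exp (-(v / 2)) * τ / (τ / 8)
        = 8 * C₁ * (v ^ (c + 1))⁻¹ * Real.exp (-(v / 2)) := by field_simp
      _ ≤ _ := by gcongr
  have hclC : 0 ≤ clC m (8 ^ m * M) := by unfold clC; positivity
  have hX0 := Real.sqrt_nonneg (8 * M * CK)
  have hrt2 : r / t ≤ (v ^ c)⁻¹ := by rw [ht]; exact hrt'
  calc 2 * (CK * 12 ^ m) * (clC m (8 ^ m * M) *
        (w / t * √(4 * (8 ^ m * M) * t ^ m * e) + (w / r + r / t) * e))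
      ≤ 2 * (CK * 12 ^ m) * (clC m (8 ^ m * M) *
        ((8 * C₁ * (v ^ c)⁻¹ * Real.exp (-(v / 2))) *
          (√(8 * M * CK) * (Real.exp (-(v / 2)) * τ ^ m)) +
          ((v ^ c)⁻¹ + (v ^ c)⁻¹) * (2 * CK * (Real.exp (-v) * τ ^ m)))) := by gcongr
    _ = _ := by
        unfold cV
        rw [← hev]
        ring

end Vale.Agent.P214.TPU
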