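import Vale.Agent.P214.TPU.Win
import Vale.Agent.P214.TP.Main
import Vale.Agent.P214.R2.ExcBasic

/-!
# P214, block TPU, part 2: the energy of a class of base points, from the two-point slab lemma

`good p0 t w r σ κ`: base points `x` in `closedBall p0 t` with `s^{2-m} exc x s ≤ σ` for all
`s ∈ [w, r/2]` and `exc x r ≤ κ`.  The tilt energy of the points `z` over `good` with
`tilt z ≥ lam` is at most `C (w/t √(A t^m e) + (w/r + r/t) e)`, `e = exc p0 (4t)`.
-/

open Set Filter Topology MeasureTheory Metric
open scoped RealInnerProductSpace ENNReal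

set_option linter.all false

namespace Vale.Agent.P214.TPU

open Vale.Agent.P214.FV Vale.Agent.P214.ODE Vale.Agent.P214.Skel

/-- Cauchy-Schwarz for `∫ √f` -/
lemma integral_sqrt_le_sqrt {α : Type*} [MeasurableSpace α] {μ : Measure α} [IsFiniteMeasure μ]
    {f : α → ℝ} (hf : Integrable f μ) (h0 : ∀ᵐ y ∂μ, 0 ≤ f y) :
    ∫ y, √(f y) ∂μ ≤ √(μ.real univ * ∫ y, f y ∂μ) := by
  have i2 : Integrable (fun y => √(f y)) μ := by
    refine Integrable.mono' ((integrable_const 1).add hf)
      (Real.continuous_sqrt.comp_aestronglyMeasurable hf.aestronglyMeasurable) ?_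
    filter_upwards [h0] with y hy
    rw [Real.norm_eq_abs, abs_of_nonneg (Real.sqrt_nonneg _)]
    show √(f y) ≤ 1 + f y
    rw [Real.sqrt_le_left (by linarith)]
    nlinarith
  set J := ∫ y, √(f y) ∂μ with hJ
  set I := ∫ y, f y ∂μ with hI
  set N := μ.real univ with hN
  have hJ0 : 0 ≤ J := integral_nonneg fun y => Real.sqrt_nonneg _
  have key : ∀ s : ℝ, 0 ≤ N * (s * s) + (-(2 * J)) * s + I := by
    intro s
    have h1 : ∫ y, (s - √(f y)) ^ 2 ∂μ = N * (s * s) + (-(2 * J)) * s + I := by
      have : ∀ᵐ y ∂μ, (s - √(f y)) ^ 2 = s * s - 2 * s * √(f y) + f y := by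
        filter_upwards [h0] with y hy
        have := Real.sq_sqrt hy
        nlinarith
      have ia : Integrable (fun y => s * s - 2 * s * √(f y)) μ :=
        (integrable_const _).sub (i2.const_mul _)
      rw [integral_congr_ae this, integral_add ia hf,
        integral_sub (integrable_const _) (i2.const_mul _), integral_const, integral_const_mul]
      simp only [smul_eq_mul]
      ring
    rw [← h1]
    exact integral_nonneg fun y => sq_nonneg _
  have hd := discrim_le_zero key
  rw [discrim] at hd
  refine Real.le_sqrt_of_sq_le ?_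
  nlinarith

variable {E : Type*} [NormedAddCommGroup E] [InnerProductSpace ℝ E] [FiniteDimensional ℝ E]
variable [MeasurableSpace E] [BorelSpace E]
variable {m : ℕ} {T : Submodule ℝ E} {G : Set E} {h : ℝ} {ν : Measure E} {P : E → E →L[ℝ] E}
  {z c p0 : E} {a A w r t σ κ lam : ℝ}

/-! ### the excess as a function of the centre -/

/-- `exc` is lower semicontinuous in the centre -/
lemma exc_le_of_seq (hC : CylStat m T G h ν P) {x : E} {s : ℝ} {κ : ℝ}
    (hx : ∀ ε > 0, ∃ x', dist x' x < ε ∧ exc T ν P x' s ≤ κ) : exc T ν P x s ≤ κ := by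
  -- continuity from below
  have hκ0 : 0 ≤ κ := by
    obtain ⟨x', -, h2⟩ := hx 1 one_pos
    exact (R2.exc_nonneg hC x' s).trans h2
  have hsmall : ∀ n : ℕ, exc T ν P x (s - 1 / (n + 1)) ≤ κ := by
    intro n
    obtain ⟨x', h1, h2⟩ := hx (1 / (n + 1)) (by positivity)
    refine (R2.exc_mono hC ?_).trans h2
    rw [dist_comm]
    linarith
  have hU : cylSet T x s = ⋃ n : ℕ, cylSet T x (s - 1 / ((n : ℝ) + 1)) := by
    ext y
    simp only [cylSet, mem_setOf_eq, mem_ball, mem_iUnion]
    constructor
    · intro hy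
      obtain ⟨n, hn⟩ := exists_nat_one_div_lt (sub_pos.2 hy)
      exact ⟨n, by linarith⟩
    · rintro ⟨n, hn⟩
      have : (0:ℝ) < 1 / (n + 1) := by positivity
      linarith
  have hmono : Monotone fun n : ℕ => cylSet T x (s - 1 / ((n : ℝ) + 1)) := by
    intro i j hij
    refine R2.cylSet_mono ?_
    rw [dist_self, add_zero]
    have : (1:ℝ) / (j + 1) ≤ 1 / (i + 1) := by
      have : (i : ℝ) ≤ j := by exact_mod_cast hij
      gcongr
    linarith
  have hlim := tendsto_setIntegral_of_monotone (μ := ν) (f := fun y => FV.tilt T (P y))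
    (fun n : ℕ => R2.measurableSet_cylSet T x (s - 1 / ((n : ℝ) + 1))) hmono
    ((R2.integrable_tilt' hC).integrableOn)
  rw [← hU] at hlim
  exact le_of_tendsto' hlim hsmall

lemma isClosed_exc_le (hC : CylStat m T G h ν P) (s κ : ℝ) :
    IsClosed {x : E | exc T ν P x s ≤ κ} := by
  refine isClosed_of_closure_subset fun x hx => ?_
  rw [Metric.mem_closure_iff] at hx
  refine exc_le_of_seq hC fun ε hε => ?_
  obtain ⟨x', h1, h2⟩ := hx ε hε
  exact ⟨x', by rwa [dist_comm], h1⟩

/-- the good base points -/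
def good (m : ℕ) (T : Submodule ℝ E) (ν : Measure E) (P : E → E →L[ℝ] E) (p0 : E)
    (t w r σ κ : ℝ) : Set E :=
  {x | x ∈ closedBall p0 t ∧ (∀ s ∈ Icc w (r / 2), s ^ (2 - (m : ℤ)) * exc T ν P x s ≤ σ) ∧
    exc T ν P x r ≤ κ}

lemma isClosed_good (hC : CylStat m T G h ν P) (hw : 0 < w) :
    IsClosed (good m T ν P p0 t w r σ κ) := by
  have e : good m T ν P p0 t w r σ κ = closedBall p0 t ∩
      ((⋂ s ∈ Icc w (r / 2), {x | exc T ν P x s ≤ σ / s ^ (2 - (m : ℤ))}) ∩
        {x | exc T ν P x r ≤ κ}) := by
    ext x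
    simp only [good, mem_setOf_eq, mem_inter_iff, mem_iInter]
    refine and_congr_right fun _ => and_congr_left fun _ => forall₂_congr fun s hs => ?_
    have : 0 < s ^ (2 - (m : ℤ)) := zpow_pos (hw.trans_le hs.1) _
    rw [le_div_iff₀ this, mul_comm]
  rw [e]
  refine isClosed_closedBall.inter (IsClosed.inter ?_ (isClosed_exc_le hC _ _))
  exact isClosed_biInter fun s _ => isClosed_exc_le hC _ _

/-- the window mass constant: the window has mass at least `c0 r^m` -/
noncomputable def c0 (m : ℕ) (a : ℝ) : ℝ := wf m a / 2 * (1 / 2) ^ m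

lemma c0_pos (ha : 0 < a) : 0 < c0 m a := by
  have := wf_pos (m := m) ha
  unfold c0
  positivity

/-! ### the cut-off -/

/-- the cut-off at scale `2t` -/
noncomputable def cut (T : Submodule ℝ E) (p0 : E) (t : ℝ) (z : E) : ℝ := TP.ker T (2 * t) (z - p0)

lemma contDiff_cut : ContDiff ℝ 1 (cut T p0 t) :=
  TP.contDiff_ker.comp (contDiff_id.sub contDiff_const)

lemma cut_nonneg (z : E) : 0 ≤ cut T p0 t z := TP.ker_nonneg _

lemma cut_le_one (z : E) : cut T p0 t z ≤ 1 := TP.ker_le_one _

lemma cut_eq_zero (ht : 0 < t) {z : E} (hz : 2 * t ≤ ‖T.starProjection (z - p0)‖) :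
    cut T p0 t z = 0 := TP.ker_eq_zero (by linarith) hz

lemma cut_ge (ht : 0 < t) {z : E} (hz : ‖T.starProjection (z - p0)‖ ≤ t) :
    9 / 16 ≤ cut T p0 t z := TP.ker_ge (by linarith) (by linarith)

lemma fderiv_cut (z : E) : fderiv ℝ (cut T p0 t) z = fderiv ℝ (TP.ker T (2 * t)) (z - p0) :=
  fderiv_comp_sub (𝕜 := ℝ) (f := TP.ker T (2 * t)) (x := z) p0

lemma norm_fderiv_cut_le (ht : 0 < t) (z : E) : ‖fderiv ℝ (cut T p0 t) z‖ ≤ 2 / t := by
  rw [fderiv_cut]
  refine (TP.norm_fderiv_ker_le (by linarith) _).trans (le_of_eq ?_)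
  field_simp
  norm_num

lemma fderiv_cut_eq_zero (ht : 0 < t) {z : E} (hz : 2 * t ≤ ‖T.starProjection (z - p0)‖) :
    fderiv ℝ (cut T p0 t) z = 0 := by
  rw [fderiv_cut]
  exact TP.fderiv_ker_eq_zero (by linarith) hz

lemma cut_star (z : E) : cut T p0 t z = TP.ker T (2 * t) (T.starProjection (z - p0)) := by
  unfold cut TP.ker
  rw [show T.starProjection (T.starProjection (z - p0)) = T.starProjection (z - p0) from
    FV.star_self T _]

lemma abs_cut_sub_le (ht : 0 < t) (z z' : E) :
    |cut T p0 t z - cut T p0 t z'| ≤ 2 / t * ‖T.starProjection (z - z')‖ := by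
  rw [cut_star, cut_star]
  have h1 := Convex.norm_image_sub_le_of_norm_fderiv_le (𝕜 := ℝ) (f := TP.ker T (2 * t))
    (C := 2 / t) (s := univ) (fun x _ => (TP.hasFDerivAt_ker x).differentiableAt) (fun x _ => by
      refine (TP.norm_fderiv_ker_le (by linarith) _).trans (le_of_eq ?_)
      field_simp
      norm_num) convex_univ (mem_univ (T.starProjection (z' - p0)))
    (mem_univ (T.starProjection (z - p0)))
  rw [Real.norm_eq_abs] at h1
  refine h1.trans (le_of_eq ?_)
  congr 2
  rw [← map_sub]
  congr 1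
  abel

/-- the local Lipschitz constant of the cut-off -/
noncomputable def cutL (T : Submodule ℝ E) (p0 : E) (t : ℝ) : E → ℝ :=
  (cylSet T (T.starProjection p0) (3 * t)).indicator fun _ => 2 / t

lemma mem_cyl_iff {x : E} {s : ℝ} : z ∈ cylSet T (T.starProjection x) s ↔
    ‖T.starProjection (z - x)‖ < s := by
  rw [cylSet, mem_setOf_eq, mem_ball, dist_eq_norm, map_sub]

lemma cutL_nonneg (ht : 0 < t) (z : E) : 0 ≤ cutL T p0 t z :=
  indicator_nonneg (fun _ _ => by positivity) _

lemma cut_lip (ht : 0 < t) (hr : 0 < r) (hrt : r ≤ t) (z z' : E)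
    (hz : ‖T.starProjection (z - z')‖ < r) :
    |cut T p0 t z - cut T p0 t z'| ≤ r * cutL T p0 t z := by
  by_cases h1 : z ∈ cylSet T (T.starProjection p0) (3 * t)
  · rw [cutL, indicator_of_mem h1]
    refine (abs_cut_sub_le ht z z').trans ?_
    rw [mul_comm]
    have : 0 < 2 / t := by positivity
    gcongr
  · rw [cutL, indicator_of_notMem h1, mul_zero]
    rw [mem_cyl_iff, not_lt] at h1
    have h2 : 2 * t ≤ ‖T.starProjection (z' - p0)‖ := by
      have h3 : T.starProjection (z - p0) = T.starProjection (z - z') + T.starProjection (z' - p0) := by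
        rw [← map_add]; congr 1; abel
      have h4 := norm_add_le (T.starProjection (z - z')) (T.starProjection (z' - p0))
      rw [← h3] at h4
      linarith
    rw [cut_eq_zero ht (by linarith), cut_eq_zero ht h2]
    simp

/-! ### the core estimate -/

/-- the energy of the points over the good base points with tilt at least `lam` -/
theorem core (hC : CylStat m T G h ν P) (hp0 : p0 ∈ T) (hG : BallIn T G p0 (4 * t)) (ha : 0 < a)
    (hA : 0 ≤ A) (hw : 0 < w) (hwr : 4 * w ≤ r) (hrt : r ≤ t)
    (hmass : ν.real (cylSet T p0 (2 * t)) ≤ A * t ^ m)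
    (hup : ∀ᵐ z ∂ν, T.starProjection z ∈ ball p0 (4 * t) →
      ν.real (closedBall z (4 * r)) ≤ A * r ^ m)
    (hlow : ∀ᵐ z ∂ν, T.starProjection z ∈ ball p0 (4 * t) →
      a * (w / 2) ^ m ≤ ν.real (ball z (w / 2)))
    (hσ : 0 ≤ σ) (hσw : 2 * TH.thC 2 * σ * Real.log (r / (2 * w)) ≤ wf m a * w ^ 2) :
    ∫ z in {z | T.starProjection z ∈ good m T ν P p0 t w r σ (c0 m a / 8 * lam * r ^ m) ∧
      lam ≤ FV.tilt T (P z)}, FV.tilt T (P z) ∂ν ≤
      2000 * A / c0 m a * (w / t * √(A * t ^ m * exc T ν P p0 (4 * t)) +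
        (w / r + r / t) * exc T ν P p0 (4 * t)) := by
  haveI := hC.fin
  have hr : 0 < r := by linarith
  have ht : 0 < t := by linarith
  have hpp : T.starProjection p0 = p0 := Submodule.starProjection_eq_self_iff.2 hp0
  set S : Set E := good m T ν P p0 t w r σ (c0 m a / 8 * lam * r ^ m) with hS
  have hSm : MeasurableSet (T.starProjection ⁻¹' S) :=
    ((isClosed_good hC hw).preimage T.starProjection.continuous).measurableSet
  have hlev : NullMeasurableSet {z | lam ≤ FV.tilt T (P z)} ν :=
    nullMeasurableSet_le aemeasurable_const (R2.integrable_tilt' hC).aemeasurable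
  set D : Set E := {z | T.starProjection z ∈ S ∧ lam ≤ FV.tilt T (P z)} with hD
  have hDm : NullMeasurableSet D ν := hSm.nullMeasurableSet.inter hlev
  obtain ⟨Cls, hsub, hCls, hae⟩ := hDm.exists_measurable_subset_ae_eq
  rw [← setIntegral_congr_set hae]
  have htilt := R2.tilt_nonneg_ae hC
  have hcp := c0_pos (m := m) ha
  -- the slab lemma
  have hbase : BaseCpt T G (cut T p0 t) := by
    refine baseCpt_of_zero (t := 2 * t) (z := p0) (fun x hx hx2 => hG x hx (by linarith)) ?_
    intro y hy
    exact cut_eq_zero ht hy.le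
  have hLi : Integrable (fun z => cutL T p0 t z * FV.tilt T (P z)) ν := by
    refine TP.integrable_mul_tilt hC (C := 2 / t) ?_ ?_
    · exact (measurable_const.indicator (R2.measurableSet_cylSet T _ _)).aestronglyMeasurable
    · refine Eventually.of_forall fun z => ?_
      rw [Real.norm_eq_abs, abs_of_nonneg (cutL_nonneg ht z)]
      refine indicator_le_self' (fun _ _ => by positivity) _
  have hM : ∀ z, (cut T p0 t z ≠ 0 ∨ fderiv ℝ (cut T p0 t) z ≠ 0 ∨ cutL T p0 t z ≠ 0) →
      ν.real {z' | ‖T.starProjection (z - z')‖ < r ∧ ‖co T (z - z')‖ < r} ≤ A * r ^ m := by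
    intro z hz
    have hz3 : ‖T.starProjection (z - p0)‖ < 3 * t := by
      by_contra hcon
      push Not at hcon
      rcases hz with h1 | h1 | h1
      · exact h1 (cut_eq_zero ht (by linarith))
      · exact h1 (fderiv_cut_eq_zero ht (by linarith))
      · refine h1 (indicator_of_notMem ?_ _)
        rw [mem_cyl_iff]
        exact not_lt.2 hcon
    set W := {z' | ‖T.starProjection (z - z')‖ < r ∧ ‖co T (z - z')‖ < r} with hW
    by_cases h0 : ν W = 0
    · rw [measureReal_def, h0]
      simp only [ENNReal.toReal_zero]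
      positivity
    · have hfr : ∃ z2 ∈ W, T.starProjection z2 ∈ ball p0 (4 * t) →
          ν.real (closedBall z2 (4 * r)) ≤ A * r ^ m := by
        by_contra hcon
        push Not at hcon
        refine h0 (measure_mono_null ?_ (ae_iff.1 hup))
        intro z2 hz2 hcon2
        obtain ⟨h1, h2⟩ := hcon z2 hz2
        exact (not_le.2 h2) (hcon2 h1)
      obtain ⟨z2, hz2, h2⟩ := hfr
      have h3 : T.starProjection z2 ∈ ball p0 (4 * t) := by
        rw [mem_ball, dist_eq_norm]
        have e1 : T.starProjection z2 - p0 = T.starProjection (z - p0) - T.starProjection (z - z2) := by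
          rw [map_sub, map_sub, hpp]; abel
        rw [e1]
        refine (norm_sub_le _ _).trans_lt ?_
        have := hz2.1
        linarith
      refine le_trans ?_ (h2 h3)
      refine measureReal_mono ?_ (measure_ne_top _ _)
      intro y hy
      have key : ∀ v : E, v = T.starProjection v + co T v := fun v => by
        rw [co_apply]; abel
      have n1 : ∀ y ∈ W, ‖z - y‖ ≤ 2 * r := by
        intro y hy
        rw [key (z - y)]
        refine (norm_add_le _ _).trans ?_
        have h1 := hy.1
        have h2 := hy.2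
        linarith
      rw [mem_closedBall, dist_eq_norm]
      have e2 : y - z2 = (z - z2) - (z - y) := by abel
      rw [e2]
      refine (norm_sub_le _ _).trans ?_
      have := n1 y hy
      have := n1 z2 hz2
      linarith
  have hslab := TP.slab (Lf := cutL T p0 t) (M := A * r ^ m) (c := c0 m a * r ^ m) hC hw hwr
    contDiff_cut hbase cut_nonneg ?_ (cutL_nonneg ht) (cut_lip ht hr hrt) hLi (by positivity) hM
    hCls (by positivity) ?_
  rotate_left
  · intro z hz x hx hxz
    refine hG x hx ?_
    have h1 : ‖T.starProjection (z - p0)‖ < 2 * t := by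
      by_contra hcon
      exact hz (cut_eq_zero ht (not_lt.1 hcon))
    have e1 : x - T.starProjection p0 = (x - T.starProjection z) + T.starProjection (z - p0) := by
      rw [map_sub]; abel
    rw [e1]
    refine (norm_add_le _ _).trans ?_
    linarith
  · filter_upwards [hlow] with z hz1 hzC _
    obtain ⟨⟨hzb, hzE, hzr⟩, hzl⟩ := hsub hzC
    have hzb4 : T.starProjection z ∈ ball p0 (4 * t) := by
      rw [mem_closedBall] at hzb
      rw [mem_ball]
      linarith
    have e1 : {z' | ‖T.starProjection (z - z')‖ ≤ r / 2 ∧ ‖co T (z - z')‖ ≤ w} =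
        cwin T z r w := by
      ext z'
      simp only [cwin, mem_setOf_eq]
      rw [← norm_neg (T.starProjection (z - z')), ← norm_neg (co T (z - z')), ← map_neg,
        ← map_neg, neg_sub]
    refine ⟨?_, ?_⟩
    · rw [e1]
      have := win_mass (R := r) hC ha hw hwr (by linarith) (fun x hx hxz => hG x hx (by
        have e1 : x - T.starProjection p0 =
            (x - T.starProjection z) + (T.starProjection z - p0) := by
          rw [hpp]; abel
        rw [e1]
        refine (norm_add_le _ _).trans ?_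
        rw [mem_closedBall, dist_eq_norm] at hzb
        linarith)) (hz1 hzb4) hσ hzE hσw
      refine le_trans (le_of_eq ?_) this
      unfold c0
      rw [div_pow, div_pow]
      ring
    · calc ∫ z' in {z' | ‖T.starProjection (z - z')‖ < r ∧ ‖co T (z - z')‖ ≤ w},
            FV.tilt T (P z') ∂ν ≤ exc T ν P (T.starProjection z) r := by
            refine setIntegral_mono_set (R2.integrable_tilt' hC).integrableOn
              (ae_restrict_of_ae htilt) (HasSubset.Subset.eventuallyLE ?_)
            rintro y ⟨hy, -⟩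
            rw [mem_cyl_iff, ← norm_neg, ← map_neg, neg_sub]
            exact hy
        _ ≤ c0 m a / 8 * lam * r ^ m := hzr
        _ = c0 m a * r ^ m / 8 * lam := by ring
        _ ≤ c0 m a * r ^ m / 8 * FV.tilt T (P z) := by gcongr
  -- the left side
  have hcutI : Integrable (fun z => cut T p0 t z * FV.tilt T (P z)) ν :=
    TP.integrable_mul_tilt hC contDiff_cut.continuous.aestronglyMeasurable (C := 1)
      (Eventually.of_forall fun z => by
        rw [Real.norm_eq_abs, abs_of_nonneg (cut_nonneg z)]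
        exact cut_le_one z)
  have hleft : 9 / 16 * ∫ z in Cls, FV.tilt T (P z) ∂ν ≤
      ∫ z in Cls, cut T p0 t z * FV.tilt T (P z) ∂ν := by
    rw [← integral_const_mul]
    refine setIntegral_mono_on_ae ((R2.integrable_tilt' hC).const_mul _).integrableOn
      hcutI.integrableOn hCls ?_
    filter_upwards [htilt] with z hz0 hzC
    refine mul_le_mul_of_nonneg_right (cut_ge ht ?_) hz0
    have := (hsub hzC).1.1
    rw [mem_closedBall, dist_eq_norm] at this
    rwa [map_sub, hpp]
  -- the right side
  set e := exc T ν P p0 (4 * t) with he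
  have he0 : 0 ≤ e := R2.exc_nonneg hC _ _
  have r2 : ∫ z, cut T p0 t z * FV.tilt T (P z) ∂ν ≤ e := by
    rw [he, exc, ← integral_indicator (R2.measurableSet_cylSet T _ _)]
    refine integral_mono_ae hcutI ((R2.integrable_tilt' hC).indicator
      (R2.measurableSet_cylSet T _ _)) ?_
    filter_upwards [htilt] with z hz0
    by_cases hz : z ∈ cylSet T p0 (4 * t)
    · rw [indicator_of_mem hz]
      calc cut T p0 t z * FV.tilt T (P z) ≤ 1 * FV.tilt T (P z) := by
            gcongr
            exact cut_le_one z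
        _ = _ := one_mul _
    · rw [indicator_of_notMem hz]
      rw [← hpp, mem_cyl_iff, not_lt] at hz
      rw [cut_eq_zero ht (by linarith), zero_mul]
  have r3 : ∫ z, cutL T p0 t z * FV.tilt T (P z) ∂ν ≤ 2 / t * e := by
    rw [he, exc, ← integral_const_mul, ← integral_indicator (R2.measurableSet_cylSet T _ _)]
    refine integral_mono_ae hLi (((R2.integrable_tilt' hC).const_mul _).indicator
      (R2.measurableSet_cylSet T _ _)) ?_
    filter_upwards [htilt] with z hz0
    by_cases hz : z ∈ cylSet T p0 (4 * t)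
    · rw [indicator_of_mem hz]
      refine mul_le_mul_of_nonneg_right ?_ hz0
      exact indicator_le_self' (fun _ _ => by positivity) _
    · rw [indicator_of_notMem hz]
      rw [← hpp, mem_cyl_iff, not_lt] at hz
      rw [cutL, indicator_of_notMem (by rw [mem_cyl_iff]; linarith), zero_mul]
  have r1 : ∫ z, ‖fderiv ℝ (cut T p0 t) z‖ * √(FV.tilt T (P z)) ∂ν ≤
      2 / t * √(A * t ^ m * e) := by
    have hI : Integrable (fun y => √(FV.tilt T (P y))) ν := by
      have := TP.integrable_mul_sqrt_tilt hC (g := fun _ => (1 : ℝ)) aestronglyMeasurable_const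
        (C := 1) (Eventually.of_forall fun _ => by simp)
      simpa using this
    have h1 : ∫ z, ‖fderiv ℝ (cut T p0 t) z‖ * √(FV.tilt T (P z)) ∂ν ≤
        ∫ z in cylSet T p0 (2 * t), 2 / t * √(FV.tilt T (P z)) ∂ν := by
      rw [← integral_indicator (R2.measurableSet_cylSet T _ _)]
      refine integral_mono_of_nonneg (Eventually.of_forall fun z => by positivity)
        ((hI.const_mul _).indicator (R2.measurableSet_cylSet T _ _)) ?_
      refine Eventually.of_forall fun z => ?_
      by_cases hz : z ∈ cylSet T p0 (2 * t)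
      · rw [indicator_of_mem hz]
        exact mul_le_mul_of_nonneg_right (norm_fderiv_cut_le ht z) (Real.sqrt_nonneg _)
      · rw [indicator_of_notMem hz]
        rw [← hpp, mem_cyl_iff, not_lt] at hz
        simp only
        rw [fderiv_cut_eq_zero ht hz, norm_zero, zero_mul]
    refine h1.trans ?_
    rw [integral_const_mul]
    have h2 := integral_sqrt_le_sqrt (μ := ν.restrict (cylSet T p0 (2 * t)))
      (R2.integrable_tilt' hC).integrableOn (ae_restrict_of_ae htilt)
    have h3 : exc T ν P p0 (2 * t) ≤ e := R2.exc_mono' hC (by linarith)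
    have h4 : (ν.restrict (cylSet T p0 (2 * t))).real univ = ν.real (cylSet T p0 (2 * t)) := by
      rw [measureReal_restrict_apply_univ]
    rw [h4] at h2
    gcongr
    refine h2.trans (Real.sqrt_le_sqrt ?_)
    have h5 : ∫ y in cylSet T p0 (2 * t), FV.tilt T (P y) ∂ν = exc T ν P p0 (2 * t) := rfl
    rw [h5]
    have h6 := R2.exc_nonneg hC p0 (2 * t)
    have h7 : 0 ≤ ν.real (cylSet T p0 (2 * t)) := measureReal_nonneg
    gcongr
  -- conclusion
  set J := ∫ z in Cls, FV.tilt T (P z) ∂ν with hJ
  have hX0 : 0 ≤ √(A * t ^ m * e) := Real.sqrt_nonneg _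
  have hfin : c0 m a * r ^ m * (9 / 16 * J) ≤ 500 * (A * r ^ m) *
      (w * (2 / t * √(A * t ^ m * e)) + w / r * e + r * (2 / t * e)) := by
    refine (mul_le_mul_of_nonneg_left hleft (by positivity)).trans (hslab.trans ?_)
    gcongr
  have hrm : 0 < r ^ m := by positivity
  have h8 : c0 m a * (9 / 16 * J) ≤ 500 * A *
      (w * (2 / t * √(A * t ^ m * e)) + w / r * e + r * (2 / t * e)) := by
    refine le_of_mul_le_mul_left ?_ hrm
    linarith
  rw [div_mul_eq_mul_div, le_div_iff₀ hcp]
  have q1 : 0 ≤ A * (w / t * √(A * t ^ m * e)) := by positivity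
  have q2 : 0 ≤ A * (w / r * e) := by positivity
  have q3 : 0 ≤ A * (r / t * e) := by positivity
  have e3 : 500 * A * (w * (2 / t * √(A * t ^ m * e)) + w / r * e + r * (2 / t * e)) =
      1000 * (A * (w / t * √(A * t ^ m * e))) + 500 * (A * (w / r * e)) +
        1000 * (A * (r / t * e)) := by ring
  rw [e3] at h8
  have e4 : 2000 * A * (w / t * √(A * t ^ m * e) + (w / r + r / t) * e) =
      2000 * (A * (w / t * √(A * t ^ m * e))) + 2000 * (A * (w / r * e)) +
        2000 * (A * (r / t * e)) := by ring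
  rw [e4]
  linarith

end Vale.Agent.P214.TPU
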