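import Vale.Agent.P214.TPU.Vit
import Vale.Agent.P214.QP.IntV
import Vale.Agent.P214.INT.NearInt

/-!
# P214, block TPU, part 4: the class estimates over `Skel.IntCyl`

The mass hypotheses of `core` and `vitali` hold for integral cylinders, with `a = cg m` and
`A = 4 M`, `M t^m` a bound of the mass over `ball p0 (16 t)`.
-/

open Set Filter Topology MeasureTheory Metric
open scoped RealInnerProductSpace ENNReal

set_option linter.all false

namespace Vale.Agent.P214.TPU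

open Vale.Agent.P214.FV Vale.Agent.P214.ODE Vale.Agent.P214.Skel

variable {E : Type*} [NormedAddCommGroup E] [InnerProductSpace ℝ E] [FiniteDimensional ℝ E]
variable [MeasurableSpace E] [BorelSpace E]
variable {m Q : ℕ} {T : Submodule ℝ E} {R h δ : ℝ} {ν : Measure E} {P : E → E →L[ℝ] E}
  {z c p0 : E} {M w r t σ κ lam : ℝ}

/-- the hypotheses on the masses -/
lemma masses (hI : IntCyl m Q T z R h δ ν P) (hp0 : p0 ∈ T) (hb : ‖p0 - z‖ + 16 * t ≤ R)
    (hM : ν.real (cylSet T p0 (16 * t)) ≤ M * t ^ m) (hw : 0 < w) (hwr : 4 * w ≤ r)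
    (hrt : r ≤ t) :
    0 ≤ 4 * M ∧ BallIn T (ball z R) p0 (4 * t) ∧
    ν.real (cylSet T p0 (2 * t)) ≤ 4 * M * t ^ m ∧
    (∀ᵐ y ∂ν, T.starProjection y ∈ ball p0 (4 * t) →
      ν.real (closedBall y (4 * r)) ≤ 4 * M * r ^ m) ∧
    (∀ᵐ y ∂ν, T.starProjection y ∈ ball p0 (4 * t) →
      cg m * (w / 2) ^ m ≤ ν.real (ball y (w / 2))) := by
  have hr : 0 < r := by linarith
  have ht : 0 < t := by linarith
  have hC := hI.cyl
  haveI := hC.fin
  have hpp : T.starProjection p0 = p0 := Submodule.starProjection_eq_self_iff.2 hp0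
  have hM0 : 0 ≤ M := by
    have h1 : 0 ≤ M * t ^ m := measureReal_nonneg.trans hM
    exact nonneg_of_mul_nonneg_left h1 (by positivity)
  have hcyl : ∀ s : ℝ, INT.cyl T p0 s = cylSet T p0 s := fun s => by
    rw [INT.cyl, hpp]; rfl
  refine ⟨by positivity, ?_, ?_, ?_, ?_⟩
  · intro x hx hx2
    rw [hpp] at hx2
    rw [mem_ball, dist_eq_norm]
    calc ‖x - z‖ = ‖(x - p0) + (p0 - z)‖ := by congr 1; abel
      _ ≤ ‖x - p0‖ + ‖p0 - z‖ := norm_add_le _ _
      _ < R := by linarith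
  · refine (measureReal_mono (R2.cylSet_mono (by rw [dist_self]; linarith))
      (measure_ne_top _ _)).trans (hM.trans ?_)
    have : 0 ≤ M * t ^ m := by positivity
    linarith
  · refine Eventually.of_forall fun y hy => ?_
    have hO : INT.cyl T p0 (2 * (8 * t)) ⊆ T.starProjection ⁻¹' (ball z R) := by
      rw [hcyl]
      intro y hy
      rw [mem_preimage, mem_ball]
      have h1 : dist (T.starProjection y) p0 < 2 * (8 * t) := hy
      have h2 := dist_triangle (T.starProjection y) p0 z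
      rw [dist_eq_norm p0 z] at h2
      linarith
    have h1 := INT.NI.measure_closedBall_le (p := y) (r := 8 * t) (s := 4 * r)
      (M := M / 8 ^ m) (INT.locStat_of_cylStat hC) hO (by
        rw [hcyl, show 2 * (8 * t) = 16 * t by ring, mul_pow, ← mul_assoc,
          div_mul_cancel₀ _ (by positivity)]
        exact hM) (by
        rw [hcyl]
        show T.starProjection y ∈ ball p0 (8 * t)
        exact ball_subset_ball (by linarith) hy) (by linarith) (by linarith)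
    refine h1.trans (le_of_eq ?_)
    have h8 : (8 : ℝ) ^ m = 2 ^ m * 4 ^ m := by rw [← mul_pow]; norm_num
    rw [mul_pow, h8]
    field_simp
  · filter_upwards [ν.support_mem_ae] with y hy hyb
    have h1 : ∀ s' ∈ Ioo 0 (w / 2), cg m * s' ^ m ≤ ν.real (ball y (w / 2)) := by
      intro s' hs'
      refine (QP.low_intCyl hI hy hs'.1 ?_).trans
        (measureReal_mono (closedBall_subset_ball hs'.2) (measure_ne_top _ _))
      rw [mem_ball, dist_eq_norm] at hyb
      have h3 : ‖T.starProjection y - z‖ ≤ ‖T.starProjection y - p0‖ + ‖p0 - z‖ := by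
        calc ‖T.starProjection y - z‖ = ‖(T.starProjection y - p0) + (p0 - z)‖ := by
              congr 1; abel
          _ ≤ _ := norm_add_le _ _
      have := hs'.2
      linarith
    have h2 : Tendsto (fun s' : ℝ => cg m * s' ^ m) (𝓝[<] (w / 2)) (𝓝 (cg m * (w / 2) ^ m)) := by
      have : Continuous fun s' : ℝ => cg m * s' ^ m := by fun_prop
      exact (this.tendsto _).mono_left nhdsWithin_le_nhds
    refine le_of_tendsto h2 ?_
    filter_upwards [Ioo_mem_nhdsLT (show (0:ℝ) < w / 2 by positivity)] with s' hs' using h1 s' hs'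

/-- the constant of the class estimates -/
noncomputable def clC (m : ℕ) (M : ℝ) : ℝ := 2000 * (4 * M) / c0 m (cg m)

/-- **Class estimate over integral cylinders.** -/
theorem core_int (hI : IntCyl m Q T z R h δ ν P) (hp0 : p0 ∈ T) (hb : ‖p0 - z‖ + 16 * t ≤ R)
    (hM : ν.real (cylSet T p0 (16 * t)) ≤ M * t ^ m) (hw : 0 < w) (hwr : 4 * w ≤ r)
    (hrt : r ≤ t) (hσ : 0 ≤ σ)
    (hσw : 2 * TH.thC 2 * σ * Real.log (r / (2 * w)) ≤ wf m (cg m) * w ^ 2) :
    ∫ y in {y | T.starProjection y ∈ good m T ν P p0 t w r σ (c0 m (cg m) / 8 * lam * r ^ m) ∧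
      lam ≤ FV.tilt T (P y)}, FV.tilt T (P y) ∂ν ≤
      clC m M * (w / t * √(4 * M * t ^ m * exc T ν P p0 (4 * t)) +
        (w / r + r / t) * exc T ν P p0 (4 * t)) := by
  obtain ⟨h1, h2, h3, h4, h5⟩ := masses hI hp0 hb hM hw hwr hrt
  exact core hI.cyl hp0 h2 (cg_pos m) h1 hw hwr hrt h3 h4 h5 hσ hσw

/-- **Class estimate over integral cylinders, Vitali version.** -/
theorem vitali_int (hI : IntCyl m Q T z R h δ ν P) (hp0 : p0 ∈ T) (hb : ‖p0 - z‖ + 16 * t ≤ R)
    (hM : ν.real (cylSet T p0 (16 * t)) ≤ M * t ^ m) (hw : 0 < w) (hwr : 4 * w ≤ r)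
    (hrt : r ≤ t) (hσ : 0 ≤ σ)
    (hσw : 2 * TH.thC 2 * σ * Real.log (r / (2 * w)) ≤ wf m (cg m) * w ^ 2)
    (hlam0 : 0 ≤ lam)
    {X : Set E} {s : E → ℝ} {K : ℝ} (hK : 0 ≤ K) (hX : ∀ x ∈ X, dist x p0 ≤ t / 2)
    (hs0 : ∀ x ∈ X, 0 < s x) (hsw : ∀ x ∈ X, s x ≤ w)
    (hdbl : ∀ x ∈ X, exc T ν P x (6 * s x) ≤ K * exc T ν P x (s x))
    (hlam : ∀ x ∈ X, 2 * (lam * ν.real (cylSet T x (s x))) ≤ exc T ν P x (s x))
    (hE : ∀ x ∈ X, ∀ ρ ∈ Icc w (r / 2), ρ ^ (2 - (m : ℤ)) * exc T ν P x (2 * ρ) ≤ σ)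
    (hR : ∀ x ∈ X, exc T ν P x (2 * r) ≤ c0 m (cg m) / 8 * lam * r ^ m) :
    ∃ B : Set E, MeasurableSet B ∧ X ⊆ B ∧
      ∫ y in T.starProjection ⁻¹' B, FV.tilt T (P y) ∂ν ≤
        2 * K * (clC m M * (w / t * √(4 * M * t ^ m * exc T ν P p0 (4 * t)) +
          (w / r + r / t) * exc T ν P p0 (4 * t))) := by
  obtain ⟨h1, h2, h3, h4, h5⟩ := masses hI hp0 hb hM hw hwr hrt
  exact vitali hI.cyl hp0 h2 (cg_pos m) h1 hw hwr hrt h3 h4 h5 hσ hσw hlam0 hK hX hs0 hsw hdbl
    hlam hE hR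

end Vale.Agent.P214.TPU
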