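import Vale.Agent.P214.TPU.Core
import Vale.Agent.P214.POS.Vit

/-!
# P214, block TPU, part 3: Vitali version of the class estimate

A class `X` of base points `x` with radii `s x ≤ w`: the excess on `ball x (6 s x)` is at most `K`
times the excess on `ball x (s x)`, half of which lives on the points with tilt `≥ lam`.
-/

open Set Filter Topology MeasureTheory Metric
open scoped RealInnerProductSpace ENNReal

set_option linter.all false

namespace Vale.Agent.P214.TPU

open Vale.Agent.P214.FV Vale.Agent.P214.ODE Vale.Agent.P214.Skel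

variable {E : Type*} [NormedAddCommGroup E] [InnerProductSpace ℝ E] [FiniteDimensional ℝ E]
variable [MeasurableSpace E] [BorelSpace E]
variable {m : ℕ} {T : Submodule ℝ E} {G : Set E} {h : ℝ} {ν : Measure E} {P : E → E →L[ℝ] E}
  {z c p0 : E} {a A w r t σ κ lam : ℝ}

/-- the tilt measure -/
noncomputable def et (T : Submodule ℝ E) (ν : Measure E) (P : E → E →L[ℝ] E) : Measure E :=
  ν.withDensity fun y => ENNReal.ofReal (FV.tilt T (P y))

lemma et_ac : et T ν P ≪ ν := withDensity_absolutelyContinuous _ _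

lemma et_apply (hC : CylStat m T G h ν P) {S : Set E} (hS : NullMeasurableSet S ν) :
    et T ν P S = ENNReal.ofReal (∫ y in S, FV.tilt T (P y) ∂ν) := by
  haveI := hC.fin
  rw [et, withDensity_apply₀ _ hS, ofReal_integral_eq_lintegral_ofReal
    (R2.integrable_tilt' hC).integrableOn (ae_restrict_of_ae (R2.tilt_nonneg_ae hC))]

lemma et_cyl (hC : CylStat m T G h ν P) (x : E) (s : ℝ) :
    et T ν P (cylSet T x s) = ENNReal.ofReal (exc T ν P x s) :=
  et_apply hC (R2.measurableSet_cylSet T x s).nullMeasurableSet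

lemma isFinite_et (hC : CylStat m T G h ν P) : IsFiniteMeasure (et T ν P) := by
  haveI := hC.fin
  refine ⟨?_⟩
  rw [et_apply hC MeasurableSet.univ.nullMeasurableSet]
  exact ENNReal.ofReal_lt_top

/-- the energy of the points over good base points, in the tilt measure -/
lemma nullMeasurableSet_lev (hC : CylStat m T G h ν P) {S : Set E} (hS : MeasurableSet S) :
    NullMeasurableSet {z | T.starProjection z ∈ S ∧ lam ≤ FV.tilt T (P z)} ν := by
  haveI := hC.fin
  exact (hS.preimage T.starProjection.continuous.measurable).nullMeasurableSet.inter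
    (nullMeasurableSet_le aemeasurable_const (R2.integrable_tilt' hC).aemeasurable)

/-- **Covering step**: if half of the excess of every ball lives on `D`. -/
theorem vitali_step (hC : CylStat m T G h ν P) {X : Set E} {s : E → ℝ} {R K : ℝ} (hK : 0 ≤ K)
    (hs0 : ∀ x ∈ X, 0 < s x) (hsR : ∀ x ∈ X, s x ≤ R)
    (hdbl : ∀ x ∈ X, exc T ν P x (6 * s x) ≤ K * exc T ν P x (s x)) {D : Set E}
    (hD : NullMeasurableSet D ν)
    (hhalf : ∀ x ∈ X, exc T ν P x (s x) ≤
      2 * ∫ y in cylSet T x (s x) ∩ D, FV.tilt T (P y) ∂ν) :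
    ∃ B : Set E, MeasurableSet B ∧ X ⊆ B ∧
      ∫ y in T.starProjection ⁻¹' B, FV.tilt T (P y) ∂ν ≤
        2 * K * ∫ y in D, FV.tilt T (P y) ∂ν := by
  haveI := hC.fin
  obtain ⟨u, huX, hcount, hd, hcov⟩ := POS.vitali_count X s hs0 hsR
  have hBm : MeasurableSet (⋃ x ∈ u, closedBall x (5 * s x)) :=
    MeasurableSet.biUnion hcount fun x _ => isClosed_closedBall.measurableSet
  refine ⟨⋃ x ∈ u, closedBall x (5 * s x), hBm, hcov, ?_⟩
  have hBp : MeasurableSet (T.starProjection ⁻¹' ⋃ x ∈ u, closedBall x (5 * s x)) :=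
    hBm.preimage T.starProjection.continuous.measurable
  have hI0 : 0 ≤ ∫ y in D, FV.tilt T (P y) ∂ν :=
    integral_nonneg_of_ae (ae_restrict_of_ae (R2.tilt_nonneg_ae hC))
  haveI := hcount.to_subtype
  have key : et T ν P (T.starProjection ⁻¹' ⋃ x ∈ u, closedBall x (5 * s x)) ≤
      ENNReal.ofReal (2 * K) * et T ν P D := by
    calc et T ν P (T.starProjection ⁻¹' ⋃ x ∈ u, closedBall x (5 * s x))
        ≤ et T ν P (⋃ x ∈ u, cylSet T x (6 * s x)) := by
          refine measure_mono fun y hy => ?_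
          simp only [mem_preimage, mem_iUnion] at hy ⊢
          obtain ⟨x, hx, hy⟩ := hy
          refine ⟨x, hx, ?_⟩
          rw [cylSet, mem_setOf_eq, mem_ball]
          rw [mem_closedBall] at hy
          have := hs0 x (huX hx)
          linarith
      _ ≤ ∑' x : u, et T ν P (cylSet T (x : E) (6 * s x)) := measure_biUnion_le _ hcount _
      _ ≤ ∑' x : u, ENNReal.ofReal (2 * K) * (et T ν P).restrict D (cylSet T (x : E) (s x)) := by
          refine ENNReal.tsum_le_tsum fun x => ?_
          have hx := huX x.2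
          rw [et_cyl hC, Measure.restrict_apply (R2.measurableSet_cylSet T _ _),
            et_apply hC ((R2.measurableSet_cylSet T _ _).nullMeasurableSet.inter hD),
            ← ENNReal.ofReal_mul (by positivity)]
          refine ENNReal.ofReal_le_ofReal ?_
          have h1 := hdbl x hx
          have h2 := hhalf x hx
          calc exc T ν P x (6 * s x) ≤ K * exc T ν P x (s x) := h1
            _ ≤ K * (2 * ∫ y in cylSet T (x : E) (s x) ∩ D, FV.tilt T (P y) ∂ν) := by gcongr
            _ = _ := by ring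
      _ = ENNReal.ofReal (2 * K) * ∑' x : u, (et T ν P).restrict D (cylSet T (x : E) (s x)) :=
          ENNReal.tsum_mul_left
      _ = ENNReal.ofReal (2 * K) *
          (et T ν P).restrict D (⋃ x : u, cylSet T (x : E) (s x)) := by
          rw [measure_iUnion ?_ fun x => R2.measurableSet_cylSet T _ _]
          intro x y hxy
          have h1 := hd x.2 y.2 fun h => hxy (Subtype.ext h)
          refine disjoint_left.2 fun v hv1 hv2 => ?_
          exact disjoint_left.1 h1 (ball_subset_closedBall hv1) (ball_subset_closedBall hv2)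
      _ ≤ ENNReal.ofReal (2 * K) * et T ν P D := by
          refine mul_le_mul' le_rfl ?_
          calc (et T ν P).restrict D (⋃ x : u, cylSet T (x : E) (s x))
              ≤ (et T ν P).restrict D univ := measure_mono (subset_univ _)
            _ = et T ν P D := Measure.restrict_apply_univ _
  rw [et_apply hC hBp.nullMeasurableSet, et_apply hC hD, ← ENNReal.ofReal_mul (by positivity)] at key
  exact (ENNReal.ofReal_le_ofReal_iff (by positivity)).1 key

/-- **Class estimate, Vitali version.** -/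
theorem vitali (hC : CylStat m T G h ν P) (hp0 : p0 ∈ T) (hG : BallIn T G p0 (4 * t)) (ha : 0 < a)
    (hA : 0 ≤ A) (hw : 0 < w) (hwr : 4 * w ≤ r) (hrt : r ≤ t)
    (hmass : ν.real (cylSet T p0 (2 * t)) ≤ A * t ^ m)
    (hup : ∀ᵐ z ∂ν, T.starProjection z ∈ ball p0 (4 * t) →
      ν.real (closedBall z (4 * r)) ≤ A * r ^ m)
    (hlow : ∀ᵐ z ∂ν, T.starProjection z ∈ ball p0 (4 * t) →
      a * (w / 2) ^ m ≤ ν.real (ball z (w / 2)))
    (hσ : 0 ≤ σ) (hσw : 2 * TH.thC 2 * σ * Real.log (r / (2 * w)) ≤ wf m a * w ^ 2)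
    (hlam0 : 0 ≤ lam)
    {X : Set E} {s : E → ℝ} {K : ℝ} (hK : 0 ≤ K) (hX : ∀ x ∈ X, dist x p0 ≤ t / 2)
    (hs0 : ∀ x ∈ X, 0 < s x) (hsw : ∀ x ∈ X, s x ≤ w)
    (hdbl : ∀ x ∈ X, exc T ν P x (6 * s x) ≤ K * exc T ν P x (s x))
    (hlam : ∀ x ∈ X, 2 * (lam * ν.real (cylSet T x (s x))) ≤ exc T ν P x (s x))
    (hE : ∀ x ∈ X, ∀ ρ ∈ Icc w (r / 2), ρ ^ (2 - (m : ℤ)) * exc T ν P x (2 * ρ) ≤ σ)
    (hR : ∀ x ∈ X, exc T ν P x (2 * r) ≤ c0 m a / 8 * lam * r ^ m) :
    ∃ B : Set E, MeasurableSet B ∧ X ⊆ B ∧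
      ∫ y in T.starProjection ⁻¹' B, FV.tilt T (P y) ∂ν ≤
        2 * K * (2000 * A / c0 m a * (w / t * √(A * t ^ m * exc T ν P p0 (4 * t)) +
          (w / r + r / t) * exc T ν P p0 (4 * t))) := by
  haveI := hC.fin
  set S := good m T ν P p0 t w r σ (c0 m a / 8 * lam * r ^ m) with hS
  have hSm : MeasurableSet S := (isClosed_good hC hw).measurableSet
  have hDm := nullMeasurableSet_lev (lam := lam) hC hSm
  have hcore := core (lam := lam) hC hp0 hG ha hA hw hwr hrt hmass hup hlow hσ hσw
  -- the balls lie over the good set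
  have hsub : ∀ x ∈ X, ∀ y ∈ cylSet T x (s x), T.starProjection y ∈ S := by
    intro x hx y hy
    rw [cylSet, mem_setOf_eq, mem_ball] at hy
    have h1 := hX x hx
    have h2 := hsw x hx
    refine ⟨?_, ?_, ?_⟩
    · rw [mem_closedBall]
      have := dist_triangle (T.starProjection y) x p0
      linarith
    · intro ρ hρ
      refine le_trans ?_ (hE x hx ρ hρ)
      have hρ0 : 0 < ρ := hw.trans_le hρ.1
      refine mul_le_mul_of_nonneg_left (R2.exc_mono hC ?_) (zpow_nonneg hρ0.le _)
      have := hρ.1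
      linarith
    · refine le_trans (R2.exc_mono hC ?_) (hR x hx)
      linarith
  obtain ⟨B, hB, hXB, hle⟩ := vitali_step (D := {z | T.starProjection z ∈ S ∧
      lam ≤ FV.tilt T (P z)}) (R := w) hC hK hs0 hsw hdbl hDm (by
    intro x hx
    set D := {z | T.starProjection z ∈ S ∧ lam ≤ FV.tilt T (P z)} with hD
    have hi := R2.integrable_tilt' hC
    have h1 : exc T ν P x (s x) = ∫ y in cylSet T x (s x) ∩ D, FV.tilt T (P y) ∂ν +
        ∫ y in cylSet T x (s x) \ D, FV.tilt T (P y) ∂ν :=
      (integral_inter_add_diff₀ (s := cylSet T x (s x)) hDm hi.integrableOn).symm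
    have hdiffm : NullMeasurableSet (cylSet T x (s x) \ D) ν :=
      (R2.measurableSet_cylSet T _ _).nullMeasurableSet.diff hDm
    have h2 : ∫ y in cylSet T x (s x) \ D, FV.tilt T (P y) ∂ν ≤
        lam * ν.real (cylSet T x (s x)) := by
      calc ∫ y in cylSet T x (s x) \ D, FV.tilt T (P y) ∂ν
          ≤ ∫ y in cylSet T x (s x) \ D, lam ∂ν := by
            refine integral_mono_ae hi.integrableOn (integrable_const _) ?_
            rw [EventuallyLE, ae_restrict_iff'₀ hdiffm]
            refine Eventually.of_forall fun y hy => ?_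
            by_contra hcon
            exact hy.2 ⟨hsub x hx y hy.1, (not_le.1 hcon).le⟩
        _ = lam * ν.real (cylSet T x (s x) \ D) := by
            rw [setIntegral_const, smul_eq_mul, mul_comm]
        _ ≤ lam * ν.real (cylSet T x (s x)) := by
            refine mul_le_mul_of_nonneg_left ?_ hlam0
            exact measureReal_mono diff_subset (measure_ne_top _ _)
    have h3 := hlam x hx
    linarith)
  exact ⟨B, hB, hXB, hle.trans (by gcongr)⟩

end Vale.Agent.P214.TPU
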