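import Vale.Agent.P214.TH.Main
import Vale.Agent.P214.QP.Mean
import Vale.Agent.P214.Skel.Defs

/-!
# P214, block TPU, part 1: mass fraction of thin windows

`win_mass`: if the energy `ρ^{2-m} e(cyl(p z, ρ))` is `≤ σ` at all scales `ρ ∈ [w, r/2]` and
`C σ log(r/(2w)) ≤ w²`, then the window of half-width `w` about a point `z` of lower density carries a
fixed fraction of the mass at scale `r`.
-/

open Set Filter Topology MeasureTheory Metric
open scoped RealInnerProductSpace

set_option linter.all false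

namespace Vale.Agent.P214.TPU

open Vale.Agent.P214.FV Vale.Agent.P214.ODE

variable {E : Type*} [NormedAddCommGroup E] [InnerProductSpace ℝ E] [FiniteDimensional ℝ E]
variable [MeasurableSpace E] [BorelSpace E]
variable {m : ℕ} {T : Submodule ℝ E} {G : Set E} {h : ℝ} {ν : Measure E} {P : E → E →L[ℝ] E}
  {z c : E}

lemma prof_ge {s : ℝ} (h0 : 0 ≤ s) (h : s ≤ 1 / 4) : 9 / 16 ≤ prof s := by
  unfold prof
  rw [max_eq_left (by linarith)]
  nlinarith

lemma kern_bound (s : ℝ) (hs : 0 ≤ s) :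
    |prof s| ≤ 2 ∧ |-dprof s| ≤ 2 ∧ |QP.cub s| ≤ 2 := by
  refine ⟨?_, ?_, ?_⟩
  · rw [abs_of_nonneg (prof_nonneg _)]
    have := prof_le_one hs
    linarith
  · rw [abs_neg, abs_of_nonneg (dprof_nonneg _)]
    exact dprof_le_two hs
  · rw [abs_of_nonneg (QP.cub_nonneg _)]
    have := QP.cub_le hs
    linarith

/-- the mass fraction obtained from the lower density `a` -/
noncomputable def wf (m : ℕ) (a : ℝ) : ℝ := 9 / 16 * a * (1 / 2) ^ m / 2

lemma wf_pos {a : ℝ} (ha : 0 < a) : 0 < wf m a := by unfold wf; positivity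

/-- the closed window about `z` -/
def cwin (T : Submodule ℝ E) (z : E) (r w : ℝ) : Set E :=
  {z' | ‖T.starProjection (z' - z)‖ ≤ r / 2 ∧ ‖co T (z' - z)‖ ≤ w}

lemma winSet_subset_cyl (z c : E) (ρ : ℝ) {t : ℝ} (ht : 0 < t) :
    TH.winSet T z c ρ t ⊆ Skel.cylSet T (T.starProjection z) t := by
  rintro y ⟨h1, -⟩
  have h1' : ‖T.starProjection (y - z)‖ ^ 2 < t ^ 2 := h1
  have h2 : ‖T.starProjection (y - z)‖ < t := lt_of_pow_lt_pow_left₀ 2 ht.le h1'
  rw [map_sub] at h2
  rw [Skel.cylSet, mem_setOf_eq, mem_ball, dist_eq_norm]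
  exact h2

omit [FiniteDimensional ℝ E] in
lemma measurableSet_cylSet [FiniteDimensional ℝ E] (T : Submodule ℝ E) (x : E) (t : ℝ) :
    MeasurableSet (Skel.cylSet T x t) :=
  (isOpen_ball.preimage T.starProjection.continuous).measurableSet

lemma integrable_tilt' (hC : CylStat m T G h ν P) : Integrable (fun y => FV.tilt T (P y)) ν := by
  have h1 := TH.integrable_tilt hC
  refine h1.congr (Eventually.of_forall fun y => ?_)
  exact QP.otilt_eq T P y

lemma tilt_nonneg' (hC : CylStat m T G h ν P) : ∀ᵐ y ∂ν, 0 ≤ FV.tilt T (P y) := by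
  filter_upwards [ODE.CylStat.tilt_nonneg hC] with y hy
  rwa [QP.otilt_eq] at hy

lemma winE_le_exc (hC : CylStat m T G h ν P) (c : E) (ρ : ℝ) {t : ℝ} (ht : 0 < t) :
    TH.winE T z c ρ P ν t ≤ Skel.exc T ν P (T.starProjection z) t := by
  unfold TH.winE Skel.exc
  simp only [QP.otilt_eq]
  refine setIntegral_mono_set (integrable_tilt' hC).integrableOn ?_
    (winSet_subset_cyl z c ρ ht).eventuallyLE
  filter_upwards [ae_restrict_of_ae (tilt_nonneg' hC)] with y hy using hy

/-- **Mass fraction of a thin window.** -/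
theorem win_mass (hC : CylStat m T G h ν P) {a w r R σ : ℝ} (ha : 0 < a) (hw : 0 < w)
    (hwr : 4 * w ≤ r) (hrR : r / 2 < R) (hG : BallIn T G z R)
    (hdens : a * (w / 2) ^ m ≤ ν.real (ball z (w / 2))) (hσ : 0 ≤ σ)
    (hE : ∀ t ∈ Icc w (r / 2), t ^ (2 - (m : ℤ)) * Skel.exc T ν P (T.starProjection z) t ≤ σ)
    (hs : 2 * TH.thC 2 * σ * Real.log (r / (2 * w)) ≤ wf m a * w ^ 2) :
    wf m a / 2 * (r / 2) ^ m ≤ ν.real (cwin T z r w) := by
  haveI := hC.fin
  have hw2 : w ≤ r / 2 := by linarith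
  have hr : 0 < r := by linarith
  have hcmem : co T z ∈ Tᗮ := by
    have := Tᗮ.starProjection_apply_mem z
    simpa [co] using this
  have hlow := TH.window_lower (t := w) (ρ := w) (κ := 9 / 16) hC QP.kern hw hw
    (hw2.trans_lt hrR) hG (by norm_num) (fun s h1 h2 => prof_ge h1 h2)
    (a := a) (by simpa using hdens)
  have hlow' : 2 * wf m a ≤ hgtK m T z prof (TH.winF T (co T z) w) ν w := by
    refine le_trans (le_of_eq ?_) hlow
    unfold wf
    rw [min_self, div_pow, div_pow]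
    field_simp
    ring
  have hch := TH.window_change (c := co T z) (ρ := w) (t₁ := w) (t₂ := r / 2) (σ := σ) hC QP.kern
    hcmem (by norm_num : (0:ℝ) ≤ 2) kern_bound hw hw hw2 hrR hG hσ (fun t ht => by
      have ht0 : 0 < t := hw.trans_le ht.1
      refine le_trans ?_ (hE t ht)
      have hz0 : 0 ≤ t ^ (2 - (m : ℤ)) := zpow_nonneg ht0.le _
      exact mul_le_mul_of_nonneg_left (winE_le_exc hC _ _ ht0) hz0)
  have hlog : Real.log (r / 2 / w) = Real.log (r / (2 * w)) := by rw [div_div]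
  have hch2 : TH.thC 2 * (1 / w ^ 2 + 1 / w ^ 2) * σ * Real.log (r / 2 / w) ≤ wf m a := by
    rw [hlog]
    calc TH.thC 2 * (1 / w ^ 2 + 1 / w ^ 2) * σ * Real.log (r / (2 * w))
        = (2 * TH.thC 2 * σ * Real.log (r / (2 * w))) / w ^ 2 := by ring
      _ ≤ (wf m a * w ^ 2) / w ^ 2 := by gcongr
      _ = wf m a := by field_simp
  have h3 : wf m a ≤ hgtK m T z prof (TH.winF T (co T z) w) ν (r / 2) := by
    have := (abs_le.1 (hch.trans hch2)).1
    linarith
  have h4 := TH.hgtK_win_le_mass (z := z) (c := co T z) (ρ := w) (t := r / 2) (B := 2) hC QP.kern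
    (by norm_num) (fun s hs => (kern_bound s hs).1) hw (by linarith)
  have h5 : ν.real (TH.winSet T z (co T z) w (r / 2)) ≤ ν.real (cwin T z r w) := by
    refine measureReal_mono ?_ (measure_ne_top _ _)
    rintro y ⟨h1, h2⟩
    have h1' : ‖T.starProjection (y - z)‖ ^ 2 < (r / 2) ^ 2 := h1
    have h2' : ‖T.starProjection (y - z)‖ < r / 2 := lt_of_pow_lt_pow_left₀ 2 (by linarith) h1'
    have h3 : hgt T (co T z) y = co T (y - z) := by unfold hgt; rw [map_sub]
    rw [h3] at h2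
    exact ⟨h2'.le, h2.le⟩
  have h6 : wf m a ≤ 2 * ν.real (cwin T z r w) / (r / 2) ^ m := by
    refine h3.trans (h4.trans ?_)
    gcongr
  rw [le_div_iff₀ (by positivity)] at h6
  linarith

end Vale.Agent.P214.TPU
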